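import Vale.Agent.P086.MathlibUsed

/-!
Definitions used in the statement of the isomorphism theorem. The Hilbert space `ℓ²(G)` is any
Hilbert space with an orthonormal basis `e` indexed by `G`.
-/

namespace Vale.Agent.P086.FF

variable {G : Type} [Group G] {E : Type} [NormedAddCommGroup E] [InnerProductSpace ℂ E]
  [CompleteSpace E]

/-- `x` is the left translation operator `λ(g)`: `λ(g) e_h = e_{gh}`. -/
def IsLam (e : HilbertBasis G ℂ E) (g : G) (x : E →L[ℂ] E) : Prop := ∀ h : G, x (e h) = e (g * h)

/-- The group von Neumann algebra `L(G) = λ(G)''`: the bounded operators which commute with every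
bounded operator commuting with all left translation operators. -/
def GroupVN (e : HilbertBasis G ℂ E) : Set (E →L[ℂ] E) :=
  {x | ∀ y : E →L[ℂ] E, (∀ g l, IsLam e g l → l * y = y * l) → x * y = y * x}

end Vale.Agent.P086.FF
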