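import Vale.Agent.P086.FF.St

/-!
`*`-isomorphism of group von Neumann algebras.
-/

namespace Vale.Agent.P086.FF

/-- `θ` restricts to a `*`-isomorphism of the set of operators `M` onto the set of operators
`N`. -/
structure IsStarIso {E F : Type} [NormedAddCommGroup E] [InnerProductSpace ℂ E] [CompleteSpace E]
    [NormedAddCommGroup F] [InnerProductSpace ℂ F] [CompleteSpace F]
    (θ : (E →L[ℂ] E) → (F →L[ℂ] F)) (M : Set (E →L[ℂ] E)) (N : Set (F →L[ℂ] F)) : Prop where
  bij : Set.BijOn θ M N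
  add : ∀ x ∈ M, ∀ y ∈ M, θ (x + y) = θ x + θ y
  mul : ∀ x ∈ M, ∀ y ∈ M, θ (x * y) = θ x * θ y
  smul : ∀ c : ℂ, ∀ x ∈ M, θ (c • x) = c • θ x
  star : ∀ x ∈ M, θ (star x) = star (θ x)

/-- `L(G)` and `L(H)` are `*`-isomorphic. (`E` with the orthonormal basis `e` is `ℓ²(G)`, `F` with
the orthonormal basis `f` is `ℓ²(H)`; for all such realizations there is a `*`-isomorphism.) -/
def Isomorphic (G H : Type) [Group G] [Group H] : Prop :=
  ∀ (E F : Type) [NormedAddCommGroup E] [InnerProductSpace ℂ E] [CompleteSpace E]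
    [NormedAddCommGroup F] [InnerProductSpace ℂ F] [CompleteSpace F]
    (e : HilbertBasis G ℂ E) (f : HilbertBasis H ℂ F),
    ∃ θ : (E →L[ℂ] E) → (F →L[ℂ] F), IsStarIso θ (GroupVN e) (GroupVN f)

end Vale.Agent.P086.FF
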